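import Vale.Agent.P279.Exp.F

namespace Vale.Agent.Results.P279.NagataExp

open MvPolynomial Vale.Agent.P279

/-- Nagata's inequality with an exponentially small error, fully explicit, for every `r ≥ 10`, all
curves and all multiplicities; and the strict inequality itself for all curves whose degree is
bounded by an explicit exponential function of `r`. -/
theorem result (r : ℕ) (hr : 10 ≤ r) : VeryGenerally r fun p =>
    ∀ (d : ℕ) (F : MvPolynomial (Fin 3) ℂ), F.IsHomogeneous d → F ≠ 0 →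
      ∀ m : Fin r → ℕ, (∀ i, MultAtLeast F (p i) (m i)) →
        (1 ≤ d → (d : ℝ) < (2 : ℝ) ^ (((r : ℝ) - 7 * √(r : ℝ) - 18) / 6) →
          ∑ i, (m i : ℝ) < d * √(r : ℝ)) ∧
        (∀ k : ℕ, 16 * k + 1 ≤ r → 37 * r ≤ (r - 16 * k - 1) ^ 2 →
          1 ≤ d → (d : ℝ) < (13 / 2 : ℝ) ^ k → ∑ i, (m i : ℝ) < d * √(r : ℝ)) ∧
        ∑ i, (m i : ℝ) ≤
          d * √((r : ℝ) + 9 / 8 * √(r : ℝ) / (2 : ℝ) ^ (((r : ℝ) - 7 * √(r : ℝ) - 18) / 6)) := by
  refine veryGenerally_of_algInd r _ ?_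
  intro p _ hp2 hai d F hF h0 m hm
  have hE := eff_of_curve hp2 hai hF h0 m hm
  refine ⟨fun hd hdB => Exp.strict_exp hd hdB hE, fun k hk1 hk2 hd hdk => ?_,
    Exp.close_exp hr hE⟩
  by_contra hcon
  push Not at hcon
  exact absurd (Exp.degree_ge hk1 hk2 hd hE hcon) (not_le.mpr hdk)

end Vale.Agent.Results.P279.NagataExp
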